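import Vale.Agent.P071.Transplant

open scoped ContDiff

namespace Vale.Agent.Results.P071.A_full

open Vale.Agent.P071

theorem result (Ω : Set ℂ) (hopen : IsOpen Ω) (hbdd : Bornology.IsBounded Ω)
    (hsc : IsSimplyConnected Ω) (hLip : HasLipschitzBoundary Ω)
    (u : ℂ → ℝ) (hcont : ContinuousOn u (closure Ω)) (hsmooth : ContDiffOn ℝ ∞ u Ω)
    (hu : IsWeakNeumannSolution Ω (mu1 Ω) u) (hne : ∃ x ∈ Ω, u x ≠ 0) :
    (∀ x ∈ Ω, fderiv ℝ u x ≠ 0) ∧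
    ∃ a ∈ frontier Ω, ∃ b ∈ frontier Ω, IsMinOn u (frontier Ω) a ∧ IsMaxOn u (frontier Ω) b ∧
      ∀ x ∈ Ω, u a < u x ∧ u x < u b := by
  have h := fderiv_ne_zero hopen hbdd hsc
    (mu1_pos hopen hbdd hsc.isPathConnected.isConnected hLip) (hsmooth.of_le (by norm_cast)) hu hne
  exact ⟨h, hot_spots hopen hbdd hsc.nonempty hcont h⟩

end Vale.Agent.Results.P071.A_full
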